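import Vale.Agent.P321.H852.Mass
import Vale.Agent.P321.R2.H613.Transfer6
import Vale.Agent.P321.UB.StepAux

/-! # Costs of the cells at all levels: a cheap cell and cheap pairs at every distance -/

namespace Vale.Agent.P321.H852

open Complex Finset Vale.Agent.P321.UB Vale.Agent.P321.R2.H613 Vale.Agent.P321.R3.H613
  Vale.Agent.P321.R3.H630

/-- The costs of the cells. -/
theorem level_costs {n i1 N : ℕ} {f f' : ℕ → ℂ} {D η ℓ κj κ θ : ℝ} {s0 : ℂ}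
    (hη : 0 < η) (hη1 : η ≤ 1 / 10) (hκj : 0 < κj) (hκj1 : κj ≤ η / 4)
    (hNκ : (N : ℝ) * κ ≤ 1)
    (hreal : ∀ i, (starRingEnd ℂ) (f i) = f i) (hreal' : ∀ i, (starRingEnd ℂ) (f' i) = f' i)
    (hf : ∀ i ≤ n, ‖f i‖ ≤ 1) (hf' : ∀ i ≤ n, ‖f' i‖ ≤ 1)
    (hℓ : 1 ≤ ℓ) (hℓD : 3 * ℓ ≤ η * D) (hn : (n : ℝ) + 1 ≤ Real.exp ℓ)
    (hκ : 0 < κ) (hκκ : 10 ^ 6 * κ ≤ η * κj) (hθ0 : 0 < θ) (hθ : 3 * 10 ^ 7 * D ≤ κj ^ 2 * θ ^ 2)
    (hs0 : s0.re = κj) (hs : Real.exp (-D) ≤ ‖NN n i1 f f' s0‖) :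
    ∃ (α : ℝ) (φ x : ℕ → ℝ), 0.9989 * κj ≤ α ∧ α ≤ 1.0011 * κj ∧ (∀ j, 0 ≤ φ j) ∧
      (∀ j < N, j * κ ≤ x j ∧ x j ≤ (j + 1) * κ ∧
        Real.exp (-(φ j)) ≤ ‖expSum (n + 1 - i1)
          (fun q => dif i1 f f' q * cexp (-(q : ℂ) ^ 2 / (2 * θ ^ 2)))
            ((κ : ℂ) - x j * I)‖) ∧
      ∑ j ∈ range N, φ j * (kap η α s0.im κ j * κ) ≤ 2 * Real.pi * ((1 + η) * D) := by
  have hD30 : 30 * ℓ ≤ D := by
    have h1 : η * D ≤ 1 / 10 * D := by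
      apply mul_le_mul_of_nonneg_right hη1
      by_contra h
      push Not at h
      have : η * D ≤ 0 := mul_nonpos_of_nonneg_of_nonpos hη.le h.le
      linarith
    linarith
  have hexp14 : (200 : ℝ) ≤ Real.exp (14 * ℓ) := by
    have h1 : Real.exp 14 ≤ Real.exp (14 * ℓ) := Real.exp_le_exp.2 (by linarith)
    have h2 : Real.exp 14 = Real.exp 1 ^ 14 := by rw [← Real.exp_nat_mul]; norm_num
    have h3 : (2 : ℝ) ^ 14 ≤ Real.exp 1 ^ 14 :=
      pow_le_pow_left₀ (by norm_num) (by linarith [Real.exp_one_gt_d9]) 14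
    rw [h2] at h1
    norm_num at h3
    linarith
  -- bound for the difference sequence
  have ha : ∀ k < n + 1 - i1, ‖dif i1 f f' k‖ ≤ 2 := by
    intro k hk
    have h1 := hf (i1 + k) (by omega)
    have h2 := hf' (i1 + k) (by omega)
    unfold dif
    calc _ ≤ ‖f (i1 + k)‖ + ‖f' (i1 + k)‖ := norm_sub_le _ _
      _ ≤ _ := by linarith
  have hm : ((n + 1 - i1 : ℕ) : ℝ) ≤ Real.exp ℓ := by
    refine le_trans ?_ hn
    have : n + 1 - i1 ≤ n + 1 := by omega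
    exact_mod_cast this
  -- transfer
  obtain ⟨δ, hδ, hδ2⟩ := transfer6 (m := n + 1 - i1) (a := dif i1 f f') (A := 2)
    (κ0 := κj) (θ := θ) (ε := Real.exp (-D)) (s0 := s0) (by norm_num) ha hκj (by
      have h1 : 1 ^ 2 ≤ (κj * θ) ^ 2 := by rw [mul_pow]; linarith
      exact (pow_le_pow_iff_left₀ (by norm_num) (by positivity) (by norm_num)).1 h1) hs0 hs (by
      have h1 : Real.exp (-(κj ^ 2 * θ ^ 2) / (2 * 10 ^ 7)) ≤ Real.exp (-(D + 15 * ℓ)) := by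
        apply Real.exp_le_exp.2
        rw [neg_div, neg_le_neg_iff, le_div_iff₀ (by norm_num)]
        linarith
      calc 100 * 2 * ((n + 1 - i1 : ℕ) : ℝ) * Real.exp (-(κj ^ 2 * θ ^ 2) / (2 * 10 ^ 7))
          ≤ 100 * 2 * Real.exp ℓ * Real.exp (-(D + 15 * ℓ)) := by gcongr
        _ = 200 * (Real.exp ℓ * Real.exp (-(D + 15 * ℓ))) := by ring
        _ ≤ Real.exp (14 * ℓ) * (Real.exp ℓ * Real.exp (-(D + 15 * ℓ))) := by gcongr
        _ = Real.exp (-D) := by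
            rw [← Real.exp_add, ← Real.exp_add]; congr 1; ring)
  -- the windowed sequence
  set a : ℕ → ℂ := fun k => dif i1 f f' k * cexp (-(k : ℂ) ^ 2 / (2 * θ ^ 2)) with haa
  have hgr : ∀ k : ℕ, cexp (-(k : ℂ) ^ 2 / (2 * θ ^ 2)) =
      ((Real.exp (-(k : ℝ) ^ 2 / (2 * θ ^ 2)) : ℝ) : ℂ) := by
    intro k; push_cast; rfl
  have hareal : ∀ k, (starRingEnd ℂ) (a k) = a k := by
    intro k
    simp only [haa, dif]
    rw [hgr k, map_mul, map_sub, hreal, hreal', Complex.conj_ofReal]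
  have ha2 : ∀ k < n + 1 - i1, ‖a k‖ ≤ 2 := by
    intro k hk
    rw [haa]
    simp only [norm_mul]
    have h1 : ‖cexp (-(k : ℂ) ^ 2 / (2 * θ ^ 2))‖ ≤ 1 := by
      rw [hgr k, Complex.norm_real, Real.norm_of_nonneg (Real.exp_pos _).le, Real.exp_le_one_iff]
      apply div_nonpos_of_nonpos_of_nonneg
      · have := sq_nonneg (k : ℝ); linarith
      · positivity
    calc ‖dif i1 f f' k‖ * ‖cexp (-(k : ℂ) ^ 2 / (2 * θ ^ 2))‖ ≤ 2 * 1 :=
          mul_le_mul (ha k hk) h1 (norm_nonneg _) (by norm_num)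
      _ = 2 := mul_one _
  -- the displaced point
  obtain ⟨s1, hs1⟩ : ∃ s1 : ℂ, s1 = s0 + δ := ⟨_, rfl⟩
  rw [← hs1] at hδ2
  have hre : s1.re = κj + δ := by rw [hs1, add_re, ofReal_re, hs0]
  have him : s1.im = s0.im := by rw [hs1, add_im, ofReal_im, add_zero]
  have hδabs := abs_le.1 hδ
  have hκsmall : 10 ^ 7 * κ ≤ κj := by
    have : η * κj ≤ 1 / 10 * κj := mul_le_mul_of_nonneg_right hη1 hκj.le
    linarith
  obtain ⟨α, hα⟩ : ∃ α, α = s1.re - κ := ⟨_, rfl⟩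
  have hα1 : 0.9989 * κj ≤ α := by rw [hα, hre]; linarith
  have hα2 : α ≤ 1.001 * κj := by rw [hα, hre]; linarith
  have hα0 : 0 < α := by linarith
  have hmA : ∀ x : ℝ, ‖expSum (n + 1 - i1) a ((κ : ℂ) - x * I)‖ ≤ Real.exp (2 * ℓ) := by
    intro x
    have hx : 0 ≤ (((κ : ℂ) - x * I)).re := by
      have e : (((κ : ℂ) - x * I)).re = κ := by
        rw [sub_re, ofReal_re, mul_re, ofReal_re, ofReal_im, I_re, I_im]
        ring
      rw [e]
      exact hκ.le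
    refine (norm_expSum_le ha2 hx).trans ?_
    have h2 : (2 : ℝ) ≤ Real.exp ℓ := by
      have := Real.add_one_le_exp ℓ
      linarith
    calc ((n + 1 - i1 : ℕ) : ℝ) * 2 ≤ Real.exp ℓ * Real.exp ℓ := by gcongr
      _ = Real.exp (2 * ℓ) := by rw [← Real.exp_add]; congr 1; ring
  have hρ0 : 0 ≤ 1 - 0.51 * η := by linarith
  have hρ : (1 - 0.51 * η) * (1 + 2 * (s1.re - κ)) ≤ 1 - 2 * κ := by
    rw [← hα]
    have h1 : 2 * α ≤ 0.5005 * η := by linarith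
    have h2 : (1 - 0.51 * η) * (1 + 2 * α) ≤ (1 - 0.51 * η) * (1 + 0.5005 * η) :=
      mul_le_mul_of_nonneg_left (by linarith) hρ0
    have h3 : η * κj ≤ η * 1 := by
      apply mul_le_mul_of_nonneg_left _ hη.le
      linarith
    nlinarith
  obtain ⟨φ, x, hφ0, hx, hsum⟩ := costs5 (m := n + 1 - i1) (a := a) (A := Real.exp (2 * ℓ))
    (w0 := κ) (ε := Real.exp (-D) / 2) (h := κ) (s := s1) (N := N)
    (kap := kap η α s0.im κ) hareal (by linarith) hκ hNκ (Real.one_le_exp (by linarith)) hmA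
    (by positivity) hδ2 (kap_pos hη1 hα0 hκ) (by
      intro j _ ξ hξ1 hξ2
      have h1 := PK_pairQ (w0 := κ) (ξ := ξ) (ρ := 1 - 0.51 * η) (s := s1) hκ (by linarith)
        hρ0 hρ
      rw [← hα, him] at h1
      refine le_trans ?_ h1
      unfold kap
      have h2 := KK_shift (a := α) (y := s0.im) (δ := κ) (u := j * κ) (v := ξ) hα0 hκ.le (by
        rw [abs_le]; constructor <;> nlinarith)
      have h3 : 0 < (1 + κ / α) ^ 2 := by positivity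
      calc (1 - 0.51 * η) / (1 + κ / α) ^ 2 * (2 * α * KK α s0.im (j * κ))
          = (1 - 0.51 * η) * (2 * α) / (1 + κ / α) ^ 2 * KK α s0.im (j * κ) := by ring
        _ ≤ (1 - 0.51 * η) * (2 * α) / (1 + κ / α) ^ 2 *
            ((1 + κ / α) ^ 2 * KK α s0.im ξ) := by
            apply mul_le_mul_of_nonneg_left h2
            positivity
        _ = (1 - 0.51 * η) * (2 * α * KK α s0.im ξ) := by
            field_simp)
  refine ⟨α, φ, x, hα1, by linarith, hφ0, hx, hsum.trans ?_⟩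
  rw [Real.log_exp, Real.log_div (Real.exp_pos _).ne' (by norm_num), Real.log_exp]
  have h1 := Real.log_two_lt_d9
  have hπ := Real.pi_pos
  apply mul_le_mul_of_nonneg_left _ (by positivity)
  linarith

theorem key_one {η : ℝ} (hη : 0 < η) (hη1 : η ≤ 1 / 10) :
    1 + η ≤ (1 + 2 * η) * (1 - 0.7 * η) := by nlinarith

theorem key_two {η : ℝ} (hη : 0 < η) (hη1 : η ≤ 1 / 10) :
    (1 + (1 + 0.41 * η)) * (1 + η) ≤ (2 + 5 * η) * (1 - 0.7 * η) := by nlinarith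

theorem shift_num {η α κj : ℝ} (hη : 0 < η) (hη1 : η ≤ 1 / 10) (hκj : 0 < κj)
    (hα0 : 0 < α) (hα1 : 0.9989 * κj ≤ α) : (1 + η / 5 * κj / α) ^ 2 ≤ 1 + 0.41 * η := by
  have h3 : η / 5 * κj / α ≤ 0.2003 * η := by
    rw [div_le_iff₀ hα0]
    have : η * (0.9989 * κj) ≤ η * α := mul_le_mul_of_nonneg_left hα1 hη.le
    have : 0 < η * κj := by positivity
    linarith
  have h4 : (1 + η / 5 * κj / α) ^ 2 ≤ (1 + 0.2003 * η) ^ 2 :=
    pow_le_pow_left₀ (by positivity) (by linarith) 2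
  nlinarith

/-- From a large value at height `κj` to cells at height `κ`: there is a cheap cell, and for
every small distance a cheap pair of cells at this distance. -/
theorem level {n i1 N : ℕ} {f f' : ℕ → ℂ} {D η β T ℓ κj κ θ : ℝ} {s0 : ℂ}
    (hη : 0 < η) (hη1 : η ≤ 1 / 10) (hκj : 0 < κj)
    (hT : β + 4 / η ≤ T) (hTκ : T * κj ≤ 1) (hN1 : (N : ℝ) * κ ≤ T * κj)
    (hN2 : T * κj ≤ ((N : ℝ) + 1) * κ) (hi : i1 ≤ n)
    (hreal : ∀ i, (starRingEnd ℂ) (f i) = f i) (hreal' : ∀ i, (starRingEnd ℂ) (f' i) = f' i)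
    (hf : ∀ i ≤ n, ‖f i‖ ≤ 1) (hf' : ∀ i ≤ n, ‖f' i‖ ≤ 1) (heq : ∀ i < i1, f i = f' i)
    (hℓ : 1 ≤ ℓ) (hℓD : 3 * ℓ ≤ η * D) (hn : (n : ℝ) + 1 ≤ Real.exp ℓ)
    (hκ : 0 < κ) (hκκ : 10 ^ 6 * κ ≤ η * κj) (hθ0 : 0 < θ) (hθ : 3 * 10 ^ 7 * D ≤ κj ^ 2 * θ ^ 2)
    (hs0 : s0.re = κj) (hs0i : |s0.im| ≤ β * κj) (hs : Real.exp (-D) ≤ ‖NN n i1 f f' s0‖) :
    ∃ φ x : ℕ → ℝ, (∀ j, 0 ≤ φ j) ∧
      (∀ j < N, j * κ ≤ x j ∧ x j ≤ (j + 1) * κ ∧
        Real.exp (-(φ j)) ≤ ‖VV n i1 θ κ f (x j) - VV n i1 θ κ f' (x j)‖) ∧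
      (∀ t : ℕ, (t : ℝ) * κ ≤ η / 5 * κj →
        ∃ j, j + t < N ∧ φ j + φ (j + t) ≤ (2 + 5 * η) * D) ∧
      ∃ a < N, φ a ≤ (1 + 2 * η) * D := by
  have hβ : 0 ≤ β := by
    by_contra h
    push Not at h
    have h1 := abs_nonneg s0.im
    have h2 : β * κj < 0 := mul_neg_of_neg_of_pos h hκj
    linarith
  have hT4 : 4 / η ≤ T := by linarith
  have hηT : 4 ≤ T * η := by rwa [div_le_iff₀ hη] at hT4
  have hκj1 : κj ≤ η / 4 := by
    have h1 : 4 * κj ≤ T * η * κj := mul_le_mul_of_nonneg_right hηT hκj.le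
    have h2 : T * κj * η ≤ 1 * η := mul_le_mul_of_nonneg_right hTκ hη.le
    linarith
  obtain ⟨α, φ, x, hα1, hα2, hφ0, hx, hsum⟩ := level_costs (N := N) hη hη1 hκj hκj1
    (by linarith) hreal hreal' hf hf' hℓ hℓD hn hκ hκκ hθ0 hθ hs0 hs
  have hα0 : 0 < α := by linarith
  have hπ := Real.pi_pos
  have hD0 : 0 < D := by
    by_contra h
    push Not at h
    have : η * D ≤ 0 := mul_nonpos_of_nonneg_of_nonpos hη.le h
    linarith
  have hm0 : 0 < 2 * Real.pi * (1 - 0.7 * η) := by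
    have : 0 < 1 - 0.7 * η := by linarith
    positivity
  -- `T κj` is large
  have hTκj : (β + 4 / η) * κj ≤ T * κj := mul_le_mul_of_nonneg_right hT hκj.le
  have h4η : 4 / η * κj = 3.99 / η * κj + 0.01 / η * κj := by ring
  have h01 : 0.1 * κj ≤ 0.01 / η * κj := by
    apply mul_le_mul_of_nonneg_right _ hκj.le
    rw [le_div_iff₀ hη]
    linarith
  have hκsmall : 10 ^ 7 * κ ≤ κj := by
    have : η * κj ≤ 1 / 10 * κj := mul_le_mul_of_nonneg_right hη1 hκj.le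
    linarith
  have hw : ∀ j, 0 ≤ kap η α s0.im κ j * κ := fun j =>
    mul_nonneg (kap_pos hη1 hα0 hκ j).le hκ.le
  refine ⟨φ, x, hφ0, ?_, ?_, ?_⟩
  · intro j hj
    obtain ⟨h1, h2, h3⟩ := hx j hj
    refine ⟨h1, h2, ?_⟩
    rw [VV_sub hi heq]
    exact h3
  · intro t ht
    have hηκ : η / 5 * κj ≤ 1 / 50 * κj := by
      apply mul_le_mul_of_nonneg_right _ hκj.le
      linarith
    have htN : t ≤ N := by
      by_contra h
      push Not at h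
      have h1 : ((N : ℝ) + 1) ≤ t := by exact_mod_cast h
      have h2 : ((N : ℝ) + 1) * κ ≤ t * κ := mul_le_mul_of_nonneg_right h1 hκ.le
      have h3 : 0 ≤ β * κj := by positivity
      have h5 : 0 < 3.99 / η * κj := by positivity
      linarith
    have hcast : ((N - t : ℕ) : ℝ) = N - t := Nat.cast_sub htN
    have hmass := mass (η := η) (α := α) (y := s0.im) (κ := κ) (κj := κj) (M := N - t)
      hη hη1 hκ hκj hα1 hα2 hκκ (by rw [hcast]; linarith)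
    have hsh : ∀ j, kap η α s0.im κ j * κ ≤
        (1 + 0.41 * η) * (kap η α s0.im κ (j + t) * κ) := by
      intro j
      have h1 := kap_shift (y := s0.im) hη1 hα0 hκ j t ht
      have h2 := shift_num hη hη1 hκj hα0 hα1
      have h5 := (kap_pos (y := s0.im) hη1 hα0 hκ (j + t)).le
      calc kap η α s0.im κ j * κ ≤ (1 + η / 5 * κj / α) ^ 2 * kap η α s0.im κ (j + t) * κ := by
            exact mul_le_mul_of_nonneg_right h1 hκ.le
        _ ≤ (1 + 0.41 * η) * kap η α s0.im κ (j + t) * κ := by gcongr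
        _ = _ := by ring
    refine avg_two hm0 hw hφ0 htN (by positivity) hmass hsum hsh (by positivity) ?_
    have key := key_two hη hη1
    calc (1 + (1 + 0.41 * η)) * (2 * Real.pi * ((1 + η) * D))
        = (1 + (1 + 0.41 * η)) * (1 + η) * (2 * Real.pi * D) := by ring
      _ ≤ (2 + 5 * η) * (1 - 0.7 * η) * (2 * Real.pi * D) := by gcongr
      _ = _ := by ring
  · have hmass := mass (η := η) (α := α) (y := s0.im) (κ := κ) (κj := κj) (M := N)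
      hη hη1 hκ hκj hα1 hα2 hκκ (by linarith)
    refine avg_one hm0 hw hmass hsum (by positivity) ?_
    have key := key_one hη hη1
    calc 2 * Real.pi * ((1 + η) * D) = (1 + η) * (2 * Real.pi * D) := by ring
      _ ≤ (1 + 2 * η) * (1 - 0.7 * η) * (2 * Real.pi * D) := by gcongr
      _ = _ := by ring

/-- The form used in the assembly of the step. -/
theorem level_q {n i1 N : ℕ} {f f' : ℕ → ℂ} {D η β T κj κ θ : ℝ} {s0 : ℂ}
    (hη : 0 < η) (hη1 : η ≤ 1 / 10) (hT : β / 2 + 2 / η ≤ T)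
    (hreal : ∀ i, (starRingEnd ℂ) (f i) = f i) (hreal' : ∀ i, (starRingEnd ℂ) (f' i) = f' i)
    (hf : ∀ i ≤ n, ‖f i‖ ≤ 1) (hf' : ∀ i ≤ n, ‖f' i‖ ≤ 1) (heq : ∀ i < i1, f i = f' i)
    (hn : (n : ℝ) + 1 ≤ Real.exp (η * D / 100)) (hD : 100 / η ≤ D)
    (hκ : 0 < κ) (hκκ : 10 ^ 6 / η * κ ≤ κj) (hκj : T * κj ≤ η / 1000) (hθ0 : 0 < θ)
    (hκθ : κ ^ 2 * θ ^ 2 = η * D / 5300)
    (hN1 : 2 * T * κj ≤ N * κ) (hN2 : N * κ ≤ 3 * T * κj)
    (hs0 : s0.re = κj) (hs0i : |s0.im| ≤ β * κj) (hs : Real.exp (-D) ≤ ‖NN n i1 f f' s0‖) :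
    ∃ φ x : ℕ → ℝ, (∀ j, 0 ≤ φ j) ∧
      (∀ j < N, j * κ ≤ x j ∧ x j ≤ (j + 1) * κ ∧
        Real.exp (-(φ j)) ≤ ‖VV n i1 θ κ f (x j) - VV n i1 θ κ f' (x j)‖) ∧
      (∀ t : ℕ, (t : ℝ) * κ ≤ η / 5 * κj →
        ∃ j, j + t < N ∧ φ j + φ (j + t) ≤ (2 + 5 * η) * D) ∧
      ∃ a < N, φ a ≤ (1 + 2 * η) * D := by
  have hκj0 : 0 < κj := lt_of_lt_of_le (by positivity) hκκ
  have hD0 : 0 < D := lt_of_lt_of_le (by positivity) hD
  have hηD : 100 ≤ η * D := by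
    rw [div_le_iff₀ hη] at hD
    linarith
  have hi : i1 ≤ n := by
    by_contra h
    push Not at h
    have h0 : n + 1 - i1 = 0 := by omega
    have h1 : ‖NN n i1 f f' s0‖ = 0 := by
      unfold NN expSum
      rw [h0, Finset.range_zero, Finset.sum_empty, norm_zero]
    rw [h1] at hs
    exact absurd hs (not_le.2 (Real.exp_pos _))
  have hκκ' : 10 ^ 6 * κ ≤ η * κj := by
    have h1 : η * (10 ^ 6 / η * κ) ≤ η * κj := mul_le_mul_of_nonneg_left hκκ hη.le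
    have h2 : η * (10 ^ 6 / η * κ) = 10 ^ 6 * κ := by field_simp
    linarith
  have hTκ : N * κ / κj * κj = N * κ := div_mul_cancel₀ _ hκj0.ne'
  have hT' : 2 * T ≤ N * κ / κj := by
    rw [le_div_iff₀ hκj0]
    exact hN1
  have e4 : 4 / η = 2 * (2 / η) := by ring
  refine level (T := N * κ / κj) (ℓ := η * D / 100) hη hη1 hκj0 (by linarith) ?_ ?_ ?_
    hi hreal hreal' hf hf' heq (by linarith) (by linarith) hn hκ hκκ' hθ0 ?_ hs0 hs0i hs
  · rw [hTκ]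
    linarith
  · rw [hTκ]
  · rw [hTκ]
    linarith
  · have h1 : (10 ^ 6 * κ) ^ 2 ≤ (η * κj) ^ 2 := pow_le_pow_left₀ (by positivity) hκκ' 2
    have h2 : (10 ^ 6 * κ) ^ 2 * θ ^ 2 ≤ (η * κj) ^ 2 * θ ^ 2 := by gcongr
    have h3 : (10 ^ 6 * κ) ^ 2 * θ ^ 2 = 10 ^ 12 * (κ ^ 2 * θ ^ 2) := by ring
    rw [h3, hκθ] at h2
    have h4 : η ^ 2 * (3 * 10 ^ 7 * D) ≤ 10 ^ 12 * (η * D / 5300) := by
      have h5 : η * (η * D) ≤ 1 / 10 * (η * D) := mul_le_mul_of_nonneg_right hη1 (by linarith)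
      have h6 : η ^ 2 * (3 * 10 ^ 7 * D) = 3 * 10 ^ 7 * (η * (η * D)) := by ring
      rw [h6]
      linarith
    have h7 : η ^ 2 * (3 * 10 ^ 7 * D) ≤ η ^ 2 * (κj ^ 2 * θ ^ 2) := by
      calc _ ≤ _ := h4
        _ ≤ _ := h2
        _ = _ := by ring
    exact le_of_mul_le_mul_left h7 (by positivity)

end Vale.Agent.P321.H852
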