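import Vale.Agent.P321.R3.H630.Count5

/-! # Kernel lemmas for the mean version of the Poisson-Jensen argument -/

namespace Vale.Agent.P321.H852

open Complex MeasureTheory Metric Real Set Vale.Agent.P321.UB Vale.Agent.P321.R3.H613
  Vale.Agent.P321.R3.H630

/-- Lower bound for the sum of the Poisson kernels at `±ξ`, with a general factor. -/
theorem PK_pairQ {w0 ξ ρ : ℝ} {s : ℂ} (h0 : 0 < w0) (h1 : w0 < s.re) (hρ0 : 0 ≤ ρ)
    (hρ : ρ * (1 + 2 * (s.re - w0)) ≤ 1 - 2 * w0) :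
    ρ * (2 * (s.re - w0) * KK (s.re - w0) s.im ξ) ≤
      PK (Complex.exp (-s)) (circleMap 0 (Real.exp (-w0)) ξ) +
      PK (Complex.exp (-s)) (circleMap 0 (Real.exp (-w0)) (-ξ)) := by
  unfold KK
  set a := s.re - w0 with ha
  have ha0 : 0 < a := by linarith
  have hz : ∀ x : ℝ, circleMap 0 (Real.exp (-w0)) x = Complex.exp (-w0 + x * I) := by
    intro x
    rw [circleMap_zero, Complex.exp_add]; push_cast; ring
  have hnz : ∀ x : ℝ, ‖circleMap 0 (Real.exp (-w0)) x‖ = Real.exp (-w0) := by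
    intro x
    rw [hz, Complex.norm_exp]; simp
  have hnw : ‖Complex.exp (-s)‖ = Real.exp (-s.re) := by rw [Complex.norm_exp]; simp
  have hdist : ∀ x : ℝ, ‖circleMap 0 (Real.exp (-w0)) x - Complex.exp (-s)‖ ^ 2 ≤
      a ^ 2 + (x + s.im) ^ 2 := by
    intro x
    have e1 : ‖circleMap 0 (Real.exp (-w0)) x - Complex.exp (-s)‖ ≤ ‖(-w0 + x * I : ℂ) - -s‖ := by
      rw [hz]
      exact norm_exp_sub_exp_le (by simp; linarith) (by simp; linarith)
    have e2 : ‖(-w0 + x * I : ℂ) - -s‖ ^ 2 = a ^ 2 + (x + s.im) ^ 2 := by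
      rw [← Complex.normSq_eq_norm_sq, Complex.normSq_apply]
      have f1 : ((-w0 + x * I : ℂ) - -s).re = a := by simp [ha]; ring
      have f2 : ((-w0 + x * I : ℂ) - -s).im = x + s.im := by simp
      rw [f1, f2]; ring
    calc _ ≤ ‖(-w0 + x * I : ℂ) - -s‖ ^ 2 := pow_le_pow_left₀ (norm_nonneg _) e1 2
      _ = _ := e2
  have hpos : ∀ x : ℝ, 0 < ‖circleMap 0 (Real.exp (-w0)) x - Complex.exp (-s)‖ := by
    intro x
    rw [norm_pos_iff, sub_ne_zero]
    intro h
    have := hnz x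
    rw [h, hnw] at this
    have := Real.exp_injective this
    linarith
  have hnum : 2 * a * ρ ≤ Real.exp (-w0) ^ 2 - Real.exp (-s.re) ^ 2 := by
    have b1 : Real.exp (-w0) ^ 2 = Real.exp (-(2 * w0)) := by
      rw [← Real.exp_nat_mul]; congr 1; push_cast; ring
    have b2 : Real.exp (-s.re) ^ 2 = Real.exp (-(2 * w0)) * Real.exp (-(2 * a)) := by
      rw [← Real.exp_nat_mul, ← Real.exp_add]
      congr 1; rw [ha]; push_cast; ring
    have b3 : 1 - 2 * w0 ≤ Real.exp (-(2 * w0)) := by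
      have := Real.add_one_le_exp (-(2 * w0)); linarith
    have b4 : 2 * a / (1 + 2 * a) ≤ 1 - Real.exp (-(2 * a)) := by
      have c1 : Real.exp (-(2 * a)) ≤ 1 / (1 + 2 * a) := by
        rw [Real.exp_neg, ← one_div]
        apply one_div_le_one_div_of_le (by linarith)
        linarith [Real.add_one_le_exp (2 * a)]
      have c2 : 2 * a / (1 + 2 * a) = 1 - 1 / (1 + 2 * a) := by
        field_simp
        ring
      linarith
    have b0 : 0 ≤ 1 - 2 * w0 := le_trans (by positivity) hρ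
    have b5 : (1 - 2 * w0) * (2 * a / (1 + 2 * a)) ≤
        Real.exp (-(2 * w0)) * (1 - Real.exp (-(2 * a))) := by
      apply mul_le_mul b3 b4 (by positivity) (Real.exp_pos _).le
    have b6 : 2 * a * ρ ≤ (1 - 2 * w0) * (2 * a / (1 + 2 * a)) := by
      rw [← mul_div_assoc, le_div_iff₀ (by positivity)]
      calc 2 * a * ρ * (1 + 2 * a) = 2 * a * (ρ * (1 + 2 * a)) := by ring
        _ ≤ 2 * a * (1 - 2 * w0) := by gcongr
        _ = (1 - 2 * w0) * (2 * a) := by ring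
    rw [b1, b2]
    linarith
  have hPK : ∀ x : ℝ, 2 * a * ρ * (1 / (a ^ 2 + (x + s.im) ^ 2)) ≤
      PK (Complex.exp (-s)) (circleMap 0 (Real.exp (-w0)) x) := by
    intro x
    unfold PK
    rw [hnz, hnw, mul_one_div]
    have h3 := hdist x
    have h4 := hpos x
    have h5 : 0 < a ^ 2 + (x + s.im) ^ 2 := by positivity
    rw [div_le_div_iff₀ h5 (by positivity)]
    calc 2 * a * ρ * ‖circleMap 0 (Real.exp (-w0)) x - Complex.exp (-s)‖ ^ 2
        ≤ 2 * a * ρ * (a ^ 2 + (x + s.im) ^ 2) := by gcongr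
      _ ≤ (Real.exp (-w0) ^ 2 - Real.exp (-s.re) ^ 2) * (a ^ 2 + (x + s.im) ^ 2) := by gcongr
  have k1 := hPK ξ
  have k2 := hPK (-ξ)
  have e3 : (-ξ + s.im) ^ 2 = (ξ - s.im) ^ 2 := by ring
  rw [e3] at k2
  have k4 : ρ * (2 * a * (1 / (a ^ 2 + (ξ + s.im) ^ 2) + 1 / (a ^ 2 + (ξ - s.im) ^ 2))) =
      2 * a * ρ * (1 / (a ^ 2 + (ξ + s.im) ^ 2)) +
      2 * a * ρ * (1 / (a ^ 2 + (ξ - s.im) ^ 2)) := by ring
  rw [k4]
  linarith

theorem term_shift {a δ u v : ℝ} (ha : 0 < a) (hδ : 0 ≤ δ) (huv : |u - v| ≤ δ) :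
    1 / (a ^ 2 + u ^ 2) ≤ (1 + δ / a) ^ 2 * (1 / (a ^ 2 + v ^ 2)) := by
  have p1 : 0 < a ^ 2 + u ^ 2 := by positivity
  have p2 : 0 < a ^ 2 + v ^ 2 := by positivity
  rw [mul_one_div, div_le_div_iff₀ p1 p2, one_mul]
  have hv : |v| ≤ |u| + δ := by
    have h1 := abs_sub_abs_le_abs_sub v u
    rw [abs_sub_comm v u] at h1
    linarith
  have hv2 : v ^ 2 ≤ (|u| + δ) ^ 2 := by
    rw [← sq_abs v]
    exact pow_le_pow_left₀ (abs_nonneg _) hv 2
  have hu2 : u ^ 2 = |u| ^ 2 := (sq_abs u).symm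
  rw [hu2]
  have hu0 := abs_nonneg u
  have key : (1 + δ / a) ^ 2 * (a ^ 2 + |u| ^ 2) - (a ^ 2 + (|u| + δ) ^ 2) =
      2 * δ / a * ((a - |u| / 2) ^ 2 + 3 / 4 * |u| ^ 2) + δ ^ 2 * |u| ^ 2 / a ^ 2 := by
    field_simp
    ring
  have : 0 ≤ 2 * δ / a * ((a - |u| / 2) ^ 2 + 3 / 4 * |u| ^ 2) + δ ^ 2 * |u| ^ 2 / a ^ 2 := by
    positivity
  linarith

/-- A small shift changes the kernel by a small factor. -/
theorem KK_shift {a y δ u v : ℝ} (ha : 0 < a) (hδ : 0 ≤ δ) (huv : |u - v| ≤ δ) :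
    KK a y u ≤ (1 + δ / a) ^ 2 * KK a y v := by
  unfold KK
  rw [mul_add]
  apply add_le_add
  · exact term_shift ha hδ (by rwa [add_sub_add_right_eq_sub])
  · exact term_shift ha hδ (by rwa [sub_sub_sub_cancel_right])

/-- Lower bound for the integral. -/
theorem int_KK_low {a y X : ℝ} (ha : 0 < a) (hX : |y| < X) :
    Real.pi - a / (X + y) - a / (X - y) ≤ a * ∫ x in (0 : ℝ)..X, KK a y x := by
  have hy' := abs_lt.1 hX
  rw [integral_KK ha]
  have w1 : 0 < (X + y) / a := div_pos (by linarith) ha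
  have w2 : 0 < (X - y) / a := div_pos (by linarith) ha
  have t1 := arctan_ge w1
  have t2 := arctan_ge w2
  rw [one_div_div] at t1 t2
  have e : (0 - y) / a = -((0 + y) / a) := by ring
  rw [e, Real.arctan_neg, add_neg_cancel, zero_div, sub_zero, mul_div_cancel₀ _ ha.ne']
  linarith

/-- Lower bound for the Riemann sums. -/
theorem sum_KK_low {a y h : ℝ} (ha : 0 < a) (hh : 0 < h) (M : ℕ) :
    ∫ x in (0 : ℝ)..(M * h), KK a y x ≤
      (1 + h / a) ^ 2 * (h * ∑ j ∈ Finset.range M, KK a y (j * h)) := by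
  have hc := continuous_KK ha y
  induction M with
  | zero => simp
  | succ M ih =>
    have hsplit : ∫ x in (0 : ℝ)..(((M + 1 : ℕ) : ℝ) * h), KK a y x =
        (∫ x in (0 : ℝ)..(M * h), KK a y x) +
          ∫ x in (M * h : ℝ)..(((M + 1 : ℕ) : ℝ) * h), KK a y x :=
      (intervalIntegral.integral_add_adjacent_intervals (hc.intervalIntegrable _ _)
        (hc.intervalIntegrable _ _)).symm
    have hcell : ∫ x in (M * h : ℝ)..(((M + 1 : ℕ) : ℝ) * h), KK a y x ≤
        (1 + h / a) ^ 2 * (h * KK a y (M * h)) := by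
      have e : (1 + h / a) ^ 2 * (h * KK a y (M * h)) =
          ∫ x in (M * h : ℝ)..(((M + 1 : ℕ) : ℝ) * h), (1 + h / a) ^ 2 * KK a y (M * h) := by
        rw [intervalIntegral.integral_const, smul_eq_mul]
        push_cast
        ring
      rw [e]
      apply intervalIntegral.integral_mono_on (by push_cast; nlinarith)
        (hc.intervalIntegrable _ _) (by simp)
      intro x hx
      apply KK_shift ha hh.le
      have h1 := hx.1
      have h2 := hx.2
      push_cast at h2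
      rw [abs_le]
      constructor <;> nlinarith
    rw [hsplit, Finset.sum_range_succ]
    calc _ ≤ (1 + h / a) ^ 2 * (h * ∑ j ∈ Finset.range M, KK a y (j * h)) +
          (1 + h / a) ^ 2 * (h * KK a y (M * h)) := add_le_add ih hcell
      _ = _ := by ring

end Vale.Agent.P321.H852
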