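import Vale.Agent.P321.H852.KernQ

/-! # The total mass of the kernel weights and the averaging arguments -/

namespace Vale.Agent.P321.H852

open Complex MeasureTheory Metric Real Set Vale.Agent.P321.UB Vale.Agent.P321.R3.H613
  Vale.Agent.P321.R3.H630

theorem KK_pos {a : ℝ} (ha : 0 < a) (y x : ℝ) : 0 < KK a y x := by
  unfold KK
  positivity

/-- The weight of the `j`-th cell. -/
noncomputable def kap (η α y κ : ℝ) (j : ℕ) : ℝ :=
  (1 - 0.51 * η) / (1 + κ / α) ^ 2 * (2 * α * KK α y (j * κ))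

theorem kap_pos {η α y κ : ℝ} (hη1 : η ≤ 1 / 10) (hα : 0 < α) (hκ : 0 < κ)
    (j : ℕ) : 0 < kap η α y κ j := by
  unfold kap
  have h1 := KK_pos hα y (j * κ)
  have h2 : 0 < 1 - 0.51 * η := by linarith
  have h3 : 0 < 1 + κ / α := by positivity
  positivity

/-- Shifting the index changes the weight by a small factor. -/
theorem kap_shift {η α y κ δ : ℝ} (hη1 : η ≤ 1 / 10) (hα : 0 < α) (hκ : 0 < κ)
    (j t : ℕ) (ht : t * κ ≤ δ) :
    kap η α y κ j ≤ (1 + δ / α) ^ 2 * kap η α y κ (j + t) := by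
  have hδ : 0 ≤ δ := le_trans (by positivity) ht
  have h := KK_shift (a := α) (y := y) (δ := δ) (u := j * κ) (v := ((j + t : ℕ) : ℝ) * κ) hα hδ
    (by
      push_cast
      rw [abs_le]
      have : 0 ≤ (t : ℝ) * κ := by positivity
      constructor <;> nlinarith)
  unfold kap
  have h2 : 0 < 1 - 0.51 * η := by linarith
  have h3 : 0 < 1 + κ / α := by positivity
  have h4 : 0 ≤ (1 - 0.51 * η) / (1 + κ / α) ^ 2 * (2 * α) := by positivity
  calc (1 - 0.51 * η) / (1 + κ / α) ^ 2 * (2 * α * KK α y (j * κ))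
      = (1 - 0.51 * η) / (1 + κ / α) ^ 2 * (2 * α) * KK α y (j * κ) := by ring
    _ ≤ (1 - 0.51 * η) / (1 + κ / α) ^ 2 * (2 * α) *
        ((1 + δ / α) ^ 2 * KK α y (((j + t : ℕ) : ℝ) * κ)) := mul_le_mul_of_nonneg_left h h4
    _ = _ := by ring

/-- numerical end of `mass` -/
theorem mass_num {η c Z : ℝ} (hη : 0 < η) (hη1 : η ≤ 1 / 10) (hc1 : 1 ≤ c)
    (hc3 : c ^ 2 ≤ 1 + 0.00001 * η) (h3 : π - 0.502 * η ≤ c * Z) :
    2 * π * (1 - 0.7 * η) ≤ (1 - 0.51 * η) / c * (2 * Z) := by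
  have hc0 : 0 < c := by linarith
  have hπ3 := Real.pi_gt_three
  have hZ0 : (π - 0.502 * η) / c ≤ Z := by
    rw [div_le_iff₀ hc0]; linarith
  have h6 : (1 - 0.51 * η) / c * (2 * ((π - 0.502 * η) / c)) ≤ (1 - 0.51 * η) / c * (2 * Z) := by
    have : 0 ≤ (1 - 0.51 * η) / c := div_nonneg (by linarith) hc0.le
    gcongr
  refine le_trans ?_ h6
  have h7 : (1 - 0.51 * η) / c * (2 * ((π - 0.502 * η) / c)) =
      2 * ((1 - 0.51 * η) * (π - 0.502 * η)) / c ^ 2 := by
    field_simp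
  rw [h7, le_div_iff₀ (by positivity)]
  have h8 : 2 * π * (1 - 0.7 * η) * c ^ 2 ≤ 2 * π * (1 - 0.7 * η) * (1 + 0.00001 * η) := by
    have : 0 ≤ 2 * π * (1 - 0.7 * η) := mul_nonneg (by positivity) (by linarith)
    exact mul_le_mul_of_nonneg_left hc3 this
  refine h8.trans ?_
  have a1 : 0 ≤ π * η * η := by positivity
  have a2 : 3 * η ≤ π * η := mul_le_mul_of_nonneg_right hπ3.le hη.le
  have a3 : 0 ≤ η * η := by positivity
  have e1 : 2 * π * (1 - 0.7 * η) * (1 + 0.00001 * η) =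
      2 * π - 1.4 * (π * η) + 0.00002 * (π * η) - 0.000014 * (π * η * η) := by ring
  have e2 : 2 * ((1 - 0.51 * η) * (π - 0.502 * η)) =
      2 * π - 1.02 * (π * η) - 1.004 * η + 0.51204 * (η * η) := by ring
  rw [e1, e2]
  linarith

theorem ratio_num {η α κ κj : ℝ} (hη : 0 < η) (hη1 : η ≤ 1 / 10) (hκ : 0 < κ)
    (hα : 0 < α) (hα1 : 0.9989 * κj ≤ α) (hκκ : 10 ^ 6 * κ ≤ η * κj) :
    1 ≤ (1 + κ / α) ^ 2 ∧ ((1 + κ / α) ^ 2) ^ 2 ≤ 1 + 0.00001 * η := by
  have hκα : κ / α ≤ 0.0000011 * η := by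
    rw [div_le_iff₀ hα]
    have : η * (0.9989 * κj) ≤ η * α := mul_le_mul_of_nonneg_left hα1 hη.le
    linarith
  have hκα0 : 0 < κ / α := by positivity
  obtain ⟨r, hr⟩ : ∃ r, r = κ / α := ⟨_, rfl⟩
  rw [← hr] at hκα hκα0 ⊢
  constructor
  · nlinarith
  · have h1 : (1 + r) ^ 2 ≤ 1 + 0.000003 * η := by
      have : (1 + r) ^ 2 ≤ (1 + 0.0000011 * η) ^ 2 :=
        pow_le_pow_left₀ (by linarith) (by linarith) 2
      nlinarith
    have h2 : ((1 + r) ^ 2) ^ 2 ≤ (1 + 0.000003 * η) ^ 2 :=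
      pow_le_pow_left₀ (by positivity) h1 2
    nlinarith

theorem tail_num {η α κj X y : ℝ} (hη : 0 < η) (hκj : 0 < κj) (hα2 : α ≤ 1.0011 * κj)
    (hX : |y| + 3.99 / η * κj ≤ X) : α / (X + y) + α / (X - y) ≤ 0.502 * η := by
  have hq : 0 < 3.99 / η * κj := by positivity
  have hya := abs_le.1 (le_refl |y|)
  have hηq : η * (3.99 / η * κj) = 3.99 * κj := by field_simp
  have hb : ∀ w : ℝ, 3.99 / η * κj ≤ w → α / w ≤ 0.251 * η := by
    intro w hw
    rw [div_le_iff₀ (lt_of_lt_of_le hq hw)]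
    have : η * (3.99 / η * κj) ≤ η * w := mul_le_mul_of_nonneg_left hw hη.le
    rw [hηq] at this
    linarith
  have t1 := hb (X + y) (by linarith)
  have t2 := hb (X - y) (by linarith)
  linarith

/-- The total mass. -/
theorem mass {η α y κ κj : ℝ} {M : ℕ} (hη : 0 < η) (hη1 : η ≤ 1 / 10) (hκ : 0 < κ)
    (hκj : 0 < κj) (hα1 : 0.9989 * κj ≤ α) (hα2 : α ≤ 1.0011 * κj)
    (hκκ : 10 ^ 6 * κ ≤ η * κj) (hX : |y| + 3.99 / η * κj ≤ M * κ) :
    2 * π * (1 - 0.7 * η) ≤ ∑ j ∈ Finset.range M, kap η α y κ j * κ := by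
  have hα : 0 < α := by linarith
  have hq : 0 < 3.99 / η * κj := by positivity
  have hyX : |y| < M * κ := by linarith
  have h1 := int_KK_low hα hyX
  have h2 := sum_KK_low (y := y) hα hκ M
  have ht := tail_num hη hκj hα2 hX
  obtain ⟨hc1, hc3⟩ := ratio_num hη hη1 hκ hα hα1 hκκ
  obtain ⟨c, hc⟩ : ∃ c, c = (1 + κ / α) ^ 2 := ⟨_, rfl⟩
  rw [← hc] at h2 hc1 hc3
  obtain ⟨Z, hZ⟩ : ∃ Z, Z = α * (κ * ∑ j ∈ Finset.range M, KK α y (j * κ)) := ⟨_, rfl⟩
  have h3 : π - 0.502 * η ≤ c * Z := by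
    have h4 := mul_le_mul_of_nonneg_left h2 hα.le
    have h5 : α * (c * (κ * ∑ j ∈ Finset.range M, KK α y (j * κ))) = c * Z := by rw [hZ]; ring
    rw [h5] at h4
    linarith
  have hS : ∑ j ∈ Finset.range M, kap η α y κ j * κ = (1 - 0.51 * η) / c * (2 * Z) := by
    unfold kap
    rw [← hc, hZ, Finset.mul_sum, Finset.mul_sum, Finset.mul_sum, Finset.mul_sum]
    apply Finset.sum_congr rfl
    intro j _
    ring
  rw [hS]
  exact mass_num hη hη1 hc1 hc3 h3

/-- Averaging: one index. -/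
theorem avg_one {N : ℕ} {φ w : ℕ → ℝ} {B m E : ℝ} (hm0 : 0 < m) (hw : ∀ j, 0 ≤ w j)
    (hm : m ≤ ∑ j ∈ Finset.range N, w j)
    (hE : ∑ j ∈ Finset.range N, φ j * w j ≤ E) (hB0 : 0 ≤ B) (hB : E ≤ B * m) :
    ∃ a < N, φ a ≤ B := by
  by_contra hcon
  push Not at hcon
  have h1 : ∑ j ∈ Finset.range N, B * w j ≤ ∑ j ∈ Finset.range N, φ j * w j := by
    apply Finset.sum_le_sum
    intro j hj
    exact mul_le_mul_of_nonneg_right (hcon j (Finset.mem_range.1 hj)).le (hw j)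
  have h2 : ∃ j ∈ Finset.range N, 0 < w j := by
    by_contra h
    push Not at h
    have : ∑ j ∈ Finset.range N, w j ≤ 0 := Finset.sum_nonpos h
    linarith
  obtain ⟨j0, hj0, hwj0⟩ := h2
  have h3 : ∑ j ∈ Finset.range N, B * w j < ∑ j ∈ Finset.range N, φ j * w j := by
    apply Finset.sum_lt_sum
    · intro j hj
      exact mul_le_mul_of_nonneg_right (hcon j (Finset.mem_range.1 hj)).le (hw j)
    · exact ⟨j0, hj0, mul_lt_mul_of_pos_right (hcon j0 (Finset.mem_range.1 hj0)) hwj0⟩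
  rw [← Finset.mul_sum] at h3
  have h4 : B * m ≤ B * ∑ j ∈ Finset.range N, w j := mul_le_mul_of_nonneg_left hm hB0
  linarith

/-- Averaging: a pair of indices at a given distance. -/
theorem avg_two {N t : ℕ} {φ w : ℕ → ℝ} {B m E q : ℝ} (hm0 : 0 < m) (hw : ∀ j, 0 ≤ w j)
    (hφ : ∀ j, 0 ≤ φ j) (ht : t ≤ N) (hq : 0 ≤ q)
    (hm : m ≤ ∑ j ∈ Finset.range (N - t), w j)
    (hE : ∑ j ∈ Finset.range N, φ j * w j ≤ E)
    (hsh : ∀ j, w j ≤ q * w (j + t)) (hB0 : 0 ≤ B) (hB : (1 + q) * E ≤ B * m) :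
    ∃ j, j + t < N ∧ φ j + φ (j + t) ≤ B := by
  have h1 : ∑ j ∈ Finset.range (N - t), φ j * w j ≤ E := by
    refine le_trans ?_ hE
    apply Finset.sum_le_sum_of_subset_of_nonneg
    · exact Finset.range_subset_range.2 (Nat.sub_le _ _)
    · intro j _ _
      exact mul_nonneg (hφ j) (hw j)
  have h2 : ∑ j ∈ Finset.range (N - t), φ (j + t) * w j ≤ q * E := by
    calc ∑ j ∈ Finset.range (N - t), φ (j + t) * w j
        ≤ ∑ j ∈ Finset.range (N - t), q * (φ (j + t) * w (j + t)) := by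
          apply Finset.sum_le_sum
          intro j _
          have := mul_le_mul_of_nonneg_left (hsh j) (hφ (j + t))
          linarith
      _ = q * ∑ j ∈ Finset.range (N - t), φ (j + t) * w (j + t) := by rw [Finset.mul_sum]
      _ ≤ q * ∑ j ∈ Finset.range N, φ j * w j := by
          apply mul_le_mul_of_nonneg_left _ hq
          have e : ∑ j ∈ Finset.range N, φ j * w j =
              ∑ j ∈ Finset.range t, φ j * w j +
              ∑ j ∈ Finset.range (N - t), φ (t + j) * w (t + j) := by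
            rw [← Finset.sum_range_add, Nat.add_sub_cancel' ht]
          rw [e]
          have e2 : ∑ j ∈ Finset.range (N - t), φ (j + t) * w (j + t) =
              ∑ j ∈ Finset.range (N - t), φ (t + j) * w (t + j) := by
            apply Finset.sum_congr rfl
            intro j _
            rw [add_comm]
          rw [e2]
          have : 0 ≤ ∑ j ∈ Finset.range t, φ j * w j :=
            Finset.sum_nonneg fun j _ => mul_nonneg (hφ j) (hw j)
          linarith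
      _ ≤ q * E := mul_le_mul_of_nonneg_left hE hq
  obtain ⟨a, ha, ha2⟩ := avg_one (N := N - t) (φ := fun j => φ j + φ (j + t)) (w := w)
    (B := B) (m := m) (E := (1 + q) * E) hm0 hw hm (by
      have : ∑ j ∈ Finset.range (N - t), (φ j + φ (j + t)) * w j =
          ∑ j ∈ Finset.range (N - t), φ j * w j +
          ∑ j ∈ Finset.range (N - t), φ (j + t) * w j := by
        rw [← Finset.sum_add_distrib]
        apply Finset.sum_congr rfl
        intro j _
        ring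
      rw [this]
      linarith) hB0 hB
  exact ⟨a, by omega, ha2⟩

end Vale.Agent.P321.H852
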